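import Mathlib

/-!
ODE comparison lemma requested by helper21 for P047.

If `w 0 = 0` and `(1 - x) * |w' x| ≤ d * (1 - (w x)^2)` on `[0,1)`, then
`|w x| ≤ (1 - (1-x)^(2d)) / (1 + (1-x)^(2d))` on `[0,1)`.
-/

namespace Vale.Agent.Lib.P047.helper15

open Set

/-- One-sided version. -/
theorem ode_tanh_bound_aux (d : ℕ) (w w' : ℝ → ℝ) (hw : ∀ x, HasDerivAt w (w' x) x)
    (h0 : w 0 = 0)
    (hineq : ∀ x, 0 ≤ x → x < 1 → (1 - x) * |w' x| ≤ d * (1 - (w x) ^ 2)) :
    ∀ x, 0 ≤ x → x < 1 → w x ≤ (1 - (1 - x) ^ (2 * d)) / (1 + (1 - x) ^ (2 * d)) := by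
  intro b hb0 hb1
  -- auxiliary function
  set Z : ℝ → ℝ := fun x => (1 + w x) * (1 - x) ^ (2 * d) - (1 - w x) with hZ
  set Z' : ℝ → ℝ := fun x =>
    w' x * (1 - x) ^ (2 * d) + (1 + w x) * (((2 * d : ℕ) : ℝ) * (1 - x) ^ (2 * d - 1) * (-1))
      + w' x with hZ'
  have hZd : ∀ x, HasDerivAt Z (Z' x) x := by
    intro x
    have h1 : HasDerivAt (fun y : ℝ => 1 - y) (-1) x := by
      simpa using (hasDerivAt_id x).const_sub 1
    have h2 : HasDerivAt (fun y : ℝ => (1 - y) ^ (2 * d))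
        (((2 * d : ℕ) : ℝ) * (1 - x) ^ (2 * d - 1) * (-1)) x := h1.pow (2 * d)
    have h3 : HasDerivAt (fun y : ℝ => 1 + w y) (w' x) x := by
      simpa using (hw x).const_add 1
    have h4 : HasDerivAt (fun y : ℝ => 1 - w y) (-(w' x)) x := by
      simpa using (hw x).const_sub 1
    have h5 := (h3.mul h2).sub h4
    have h6 : HasDerivAt Z (w' x * (1 - x) ^ (2 * d)
        + (1 + w x) * (((2 * d : ℕ) : ℝ) * (1 - x) ^ (2 * d - 1) * (-1)) - -w' x) x := h5
    refine h6.congr_deriv ?_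
    simp only [hZ']
    ring
  have hZ0 : Z 0 = 0 := by simp [hZ, h0]
  -- key differential inequality
  have key : ∀ x, 0 ≤ x → x < 1 → 0 ≤ Z x → Z' x ≤ 0 := by
    intro x hx0 hx1 hZx
    have h1x : 0 < 1 - x := by linarith
    have hq : 0 ≤ (1 - x) ^ (2 * d) := by positivity
    have hin := hineq x hx0 hx1
    have habs : w' x ≤ |w' x| := le_abs_self _
    have hdnn : (0 : ℝ) ≤ d := Nat.cast_nonneg d
    have hpow : (1 - x) * (((2 * d : ℕ) : ℝ) * (1 - x) ^ (2 * d - 1) * (-1))
        = -(2 * d) * (1 - x) ^ (2 * d) := by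
      rcases Nat.eq_zero_or_pos d with hd | hd
      · subst hd; simp
      · have : 2 * d = (2 * d - 1) + 1 := by omega
        have hp : (1 - x) ^ (2 * d) = (1 - x) ^ (2 * d - 1) * (1 - x) := by
          conv_lhs => rw [this]
          rw [pow_succ]
        rw [hp]; push_cast; ring
    -- d * (1 + w) ≥ 0
    have hd1w : 0 ≤ (d : ℝ) * (1 + w x) := by
      rcases Nat.eq_zero_or_pos d with hd | hd
      · subst hd; simp
      · have hdpos : (0 : ℝ) < d := by exact_mod_cast hd
        have h1 : 0 ≤ (d : ℝ) * (1 - (w x) ^ 2) := by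
          have : 0 ≤ (1 - x) * |w' x| := mul_nonneg h1x.le (abs_nonneg _)
          linarith
        have h2 : 0 ≤ 1 - (w x) ^ 2 := by
          by_contra hneg
          push Not at hneg
          have : (d : ℝ) * (1 - (w x) ^ 2) < 0 := mul_neg_of_pos_of_neg hdpos hneg
          linarith
        have h3 : -1 ≤ w x := by nlinarith
        have : 0 ≤ 1 + w x := by linarith
        positivity
    -- (1 - x) * Z' x ≤ - d (1 + w) Z
    have hmain : (1 - x) * Z' x ≤ -((d : ℝ) * (1 + w x)) * Z x := by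
      have e1 : (1 - x) * Z' x
          = ((1 - x) * w' x) * ((1 - x) ^ (2 * d) + 1)
            + (1 + w x) * ((1 - x) * (((2 * d : ℕ) : ℝ) * (1 - x) ^ (2 * d - 1) * (-1))) := by
        simp only [hZ']; ring
      rw [e1, hpow]
      have h2 : (1 - x) * w' x ≤ (d : ℝ) * (1 - (w x) ^ 2) := by
        have : (1 - x) * w' x ≤ (1 - x) * |w' x| := mul_le_mul_of_nonneg_left habs h1x.le
        linarith
      have h3 : ((1 - x) * w' x) * ((1 - x) ^ (2 * d) + 1)
          ≤ ((d : ℝ) * (1 - (w x) ^ 2)) * ((1 - x) ^ (2 * d) + 1) :=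
        mul_le_mul_of_nonneg_right h2 (by linarith)
      have e2 : ((d : ℝ) * (1 - (w x) ^ 2)) * ((1 - x) ^ (2 * d) + 1)
            + (1 + w x) * (-(2 * d) * (1 - x) ^ (2 * d))
          = -((d : ℝ) * (1 + w x)) * Z x := by
        simp only [hZ]; ring
      linarith
    have hle : (1 - x) * Z' x ≤ 0 := by
      have : 0 ≤ ((d : ℝ) * (1 + w x)) * Z x := mul_nonneg hd1w hZx
      linarith
    by_contra hpos
    push Not at hpos
    have : 0 < (1 - x) * Z' x := mul_pos h1x hpos
    linarith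
  -- fence argument: Z x ≤ ε x on [0,b] for every ε > 0
  have hZle : ∀ ε : ℝ, 0 < ε → Z b ≤ ε * b := by
    intro ε hε
    have hcont : ContinuousOn Z (Icc 0 b) := fun x _ => (hZd x).continuousAt.continuousWithinAt
    have hB : ContinuousOn (fun x : ℝ => ε * x) (Icc 0 b) := by fun_prop
    have hfence := image_le_of_deriv_right_lt_deriv_boundary' (f := Z) (f' := Z') (a := 0) (b := b)
      hcont (fun x _ => (hZd x).hasDerivWithinAt)
      (B := fun x : ℝ => ε * x) (B' := fun _ => ε) (by simp [hZ0]) hB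
      (fun x _ => by
        have : HasDerivAt (fun y : ℝ => ε * y) ε x := by
          simpa using (hasDerivAt_id x).const_mul ε
        exact this.hasDerivWithinAt)
      (fun x hx hxeq => by
        have hx0 : 0 ≤ x := hx.1
        have hx1 : x < 1 := lt_of_lt_of_le hx.2 hb1.le
        have hZx : 0 ≤ Z x := by rw [hxeq]; positivity
        have := key x hx0 hx1 hZx
        linarith)
    exact hfence (right_mem_Icc.mpr hb0)
  have hZb : Z b ≤ 0 := by
    by_contra hpos
    push Not at hpos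
    rcases eq_or_lt_of_le hb0 with hb | hb
    · rw [← hb, hZ0] at hpos; exact lt_irrefl _ hpos
    · have := hZle (Z b / (2 * b)) (by positivity)
      have e : Z b / (2 * b) * b = Z b / 2 := by field_simp
      rw [e] at this
      linarith
  -- conclude
  have hq : 0 ≤ (1 - b) ^ (2 * d) := by
    have : 0 ≤ 1 - b := by linarith
    positivity
  rw [le_div_iff₀ (by linarith)]
  simp only [hZ] at hZb
  nlinarith

theorem ode_tanh_bound (d : ℕ) (w w' : ℝ → ℝ) (hw : ∀ x, HasDerivAt w (w' x) x) (h0 : w 0 = 0)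
    (hineq : ∀ x, 0 ≤ x → x < 1 → (1 - x) * |w' x| ≤ d * (1 - (w x) ^ 2)) :
    ∀ x, 0 ≤ x → x < 1 → |w x| ≤ (1 - (1 - x) ^ (2 * d)) / (1 + (1 - x) ^ (2 * d)) := by
  intro x hx0 hx1
  have h1 := ode_tanh_bound_aux d w w' hw h0 hineq x hx0 hx1
  have h2 := ode_tanh_bound_aux d (fun y => -w y) (fun y => -w' y)
    (fun y => (hw y).neg) (by simp [h0])
    (fun y hy0 hy1 => by
      have := hineq y hy0 hy1
      simpa [abs_neg] using this) x hx0 hx1
  rw [abs_le]
  constructor
  · linarith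
  · exact h1

end Vale.Agent.Lib.P047.helper15
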